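import Vale.Agent.Lib.P335.helper46.PairFibre
import Vale.Agent.Lib.P335.helper57.TauFacts
import Vale.Agent.Lib.P335.helper36.JohnsonGap

/-!
The sharp Johnson-fibre bound for the correction terms of the graph case of P335:
for a pole pair `{x, y}` the sum over the disjoint pole pairs `{z, w}` of `K x y z w f` is at
most the pair switch form minus twice the pair variance form.
Proof: each class of `G - {x, y}` is a Johnson slice (the `k`-subsets of the active set), and on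
the slice the statement is `johnson_pair_sum` together with `johnson_gap`.
-/

namespace Vale.Agent.Lib.P335.H46G

open Finset
open scoped Classical
open Vale.Agent.Lib.P335 Vale.Agent.Lib.P335.Bip Vale.Agent.Lib.P335.Gr
open Vale.Agent.Lib.P335.H45G Vale.Agent.Lib.P335.H59

variable {n : ℕ}

/-- For active `z`, `w` the event `Sep` says that exactly one of them is a neighbour of `x`. -/
theorem sep_iff_nx {x y z w : Fin n} {G : SimpleGraph (Fin n)} (hz : z ∈ act x y G)
    (hw : w ∈ act x y G) : Sep x y z w G ↔ ¬ (z ∈ nx x y G ↔ w ∈ nx x y G) := by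
  rw [mem_nx_of_act hz, mem_nx_of_act hw]
  rw [mem_act] at hz hw
  unfold H45G.Sep
  have h1 := hz.2.2
  have h2 := hw.2.2
  by_cases a1 : G.Adj x z <;> by_cases a2 : G.Adj y z <;> by_cases a3 : G.Adj x w <;>
    by_cases a4 : G.Adj y w <;> simp_all

/-- `Sep` forces both `z` and `w` to be active. -/
theorem act_of_sep {x y z w : Fin n} {G : SimpleGraph (Fin n)} (hxz : x ≠ z) (hxw : x ≠ w)
    (hyz : y ≠ z) (hyw : y ≠ w) (h : Sep x y z w G) : z ∈ act x y G ∧ w ∈ act x y G := by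
  rw [mem_act, mem_act]
  unfold H45G.Sep at h
  refine ⟨⟨hxz.symm, hyz.symm, ?_⟩, ⟨hxw.symm, hyw.symm, ?_⟩⟩
  · rcases h with ⟨h1, h2, h3, h4⟩ | ⟨h1, h2, h3, h4⟩
    · exact fun hh => h4 (hh.mp h1)
    · exact fun hh => h3 (hh.mpr h2)
  · rcases h with ⟨h1, h2, h3, h4⟩ | ⟨h1, h2, h3, h4⟩
    · exact fun hh => h3 (hh.mpr h2)
    · exact fun hh => h4 (hh.mp h1)

/-- The switch acts on the set of active neighbours of `x` as the exchange of `z` and `w`. -/
theorem nx_tauG {x y z w : Fin n} {G : SimpleGraph (Fin n)}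
    (hz : z ∈ act x y G) (hw : w ∈ act x y G) :
    nx x y (tauG x y z w G) = sw z w (nx x y G) := by
  have hzx : z ≠ x := (mem_act.mp hz).1
  have hzy : z ≠ y := (mem_act.mp hz).2.1
  have hwx : w ≠ x := (mem_act.mp hw).1
  have hwy : w ≠ y := (mem_act.mp hw).2.1
  by_cases hS : Sep x y z w G
  · have hxz' := H57.tauG_adj_of_cross G hS x z hzx.symm H57.isCross_xz
    have hxw' := H57.tauG_adj_of_cross G hS x w hwx.symm H57.isCross_xw
    have hyz' := H57.tauG_adj_of_cross G hS y z hzy.symm H57.isCross_yz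
    have hyw' := H57.tauG_adj_of_cross G hS y w hwy.symm H57.isCross_yw
    ext v
    by_cases hvz : v = z
    · subst hvz
      rw [left_mem_sw, mem_nx, mem_nx, hxz', hyz']
      unfold H45G.Sep at hS
      constructor
      · rintro ⟨_, _, h1, h2⟩
        refine ⟨hwx, hwy, ?_, ?_⟩ <;> tauto
      · rintro ⟨_, _, h1, h2⟩
        refine ⟨hzx, hzy, ?_, ?_⟩ <;> tauto
    · by_cases hvw : v = w
      · subst hvw
        rw [right_mem_sw, mem_nx, mem_nx, hxw', hyw']
        unfold H45G.Sep at hS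
        constructor
        · rintro ⟨_, _, h1, h2⟩
          refine ⟨hzx, hzy, ?_, ?_⟩ <;> tauto
        · rintro ⟨_, _, h1, h2⟩
          refine ⟨hwx, hwy, ?_, ?_⟩ <;> tauto
      · rw [other_mem_sw hvz hvw, mem_nx, mem_nx]
        have c1 : ¬ IsCross x y z w x v := by
          unfold IsCross
          rintro (⟨_, h | h⟩ | ⟨h | h, _⟩)
          · exact hvz h
          · exact hvw h
          · exact hzx h.symm
          · exact hwx h.symm
        have c2 : ¬ IsCross x y z w y v := by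
          unfold IsCross
          rintro (⟨_, h | h⟩ | ⟨h | h, _⟩)
          · exact hvz h
          · exact hvw h
          · exact hzy h.symm
          · exact hwy h.symm
        rw [H57.tauG_adj_of_not_cross G x v c1, H57.tauG_adj_of_not_cross G y v c2]
  · rw [H57.tauG_eq_self_of_not_sep G hS]
    have h := (sep_iff_nx hz hw).not.mp hS
    rw [not_not] at h
    exact (sw_eq_self h).symm

/-- A nonempty family of `k`-subsets of `D` closed under the exchanges is the whole slice. -/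
theorem mem_of_sw_closed {V : Type*} [DecidableEq V] (D : Finset V) (k : ℕ)
    (F : Finset (Finset V)) (hsub : F ⊆ D.powersetCard k)
    (hcl : ∀ S ∈ F, ∀ a ∈ D, ∀ b ∈ D, a ≠ b → sw a b S ∈ F) :
    ∀ (j : ℕ) (S : Finset V), S ∈ F → ∀ T ∈ D.powersetCard k, (S \ T).card = j → T ∈ F := by
  intro j
  induction j with
  | zero =>
    intro S hS T hT hj
    have hST : S ⊆ T := by
      rw [← Finset.sdiff_eq_empty_iff_subset]
      exact Finset.card_eq_zero.mp hj
    have hS' := Finset.mem_powersetCard.mp (hsub hS)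
    have hT' := Finset.mem_powersetCard.mp hT
    have : S = T := Finset.eq_of_subset_of_card_le hST (by rw [hS'.2, hT'.2])
    rw [← this]
    exact hS
  | succ j ih =>
    intro S hS T hT hj
    have hS' := Finset.mem_powersetCard.mp (hsub hS)
    have hT' := Finset.mem_powersetCard.mp hT
    have hne : (S \ T).Nonempty := by
      rw [← Finset.card_pos, hj]; omega
    obtain ⟨a, ha⟩ := hne
    have hcard : (T \ S).card = (S \ T).card := by
      have h1 := Finset.card_sdiff_add_card_inter S T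
      have h2 := Finset.card_sdiff_add_card_inter T S
      rw [Finset.inter_comm] at h2
      omega
    have hne2 : (T \ S).Nonempty := by
      rw [← Finset.card_pos, hcard, hj]; omega
    obtain ⟨b, hb⟩ := hne2
    rw [Finset.mem_sdiff] at ha hb
    have hab : a ≠ b := fun h => ha.2 (h ▸ hb.1)
    have hS2 : sw a b S ∈ F := hcl S hS a (hS'.1 ha.1) b (hT'.1 hb.1) hab
    apply ih (sw a b S) hS2 T hT
    rw [H36J.sw_eq_insert_erase ha.1 hb.2]
    have e : insert b (S.erase a) \ T = (S \ T).erase a := by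
      ext v
      simp only [Finset.mem_sdiff, Finset.mem_insert, Finset.mem_erase]
      constructor
      · rintro ⟨h | h, hvT⟩
        · exact absurd (h ▸ hb.1) hvT
        · exact ⟨h.1, h.2, hvT⟩
      · rintro ⟨h1, h2, h3⟩
        exact ⟨Or.inr ⟨h1, h2⟩, h3⟩
    rw [e, Finset.card_erase_of_mem (Finset.mem_sdiff.mpr ha), hj]
    rfl

variable {d : Fin n → ℕ}

/-- The class of `G0`: the graphs of `Omega n d` with the same `G - {x, y}`. -/
noncomputable def cls (x y : Fin n) (G0 : Omega n d) : Finset (Omega n d) :=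
  univ.filter (fun G : Omega n d => gmask {x, y} G.1 = gmask {x, y} G0.1)

theorem mem_cls {x y : Fin n} {G0 G : Omega n d} :
    G ∈ cls x y G0 ↔ gmask {x, y} G.1 = gmask {x, y} G0.1 := by
  unfold cls; simp

theorem self_mem_cls (x y : Fin n) (G0 : Omega n d) : G0 ∈ cls x y G0 := mem_cls.mpr rfl

theorem cls_agree {x y : Fin n} {G0 G : Omega n d} (hG : G ∈ cls x y G0) :
    AgreeOff x y G.1 G0.1 := agreeOff_of_gmask (mem_cls.mp hG)

theorem cls_deg (G0 G : Omega n d) : ∀ v, G.1.degree v = G0.1.degree v :=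
  fun v => (G.2 v).trans (G0.2 v).symm

theorem cls_act {x y : Fin n} (hxy : x ≠ y) {G0 G : Omega n d} (hG : G ∈ cls x y G0) :
    act x y G.1 = act x y G0.1 := act_eq hxy (cls_agree hG) (cls_deg G0 G)

theorem cls_nx_mem {x y : Fin n} (hxy : x ≠ y) {G0 G : Omega n d} (hG : G ∈ cls x y G0) :
    nx x y G.1 ∈ (act x y G0.1).powersetCard (nx x y G0.1).card := by
  rw [mem_powersetCard]
  refine ⟨?_, card_nx_eq hxy (cls_agree hG) (cls_deg G0 G)⟩
  rw [← cls_act hxy hG]
  exact nx_subset_act x y G.1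

theorem cls_nx_inj {x y : Fin n} (hxy : x ≠ y) {G0 G G' : Omega n d} (hG : G ∈ cls x y G0)
    (hG' : G' ∈ cls x y G0) (h : nx x y G.1 = nx x y G'.1) : G = G' := by
  apply Subtype.ext
  have hag : AgreeOff x y G.1 G'.1 :=
    agreeOff_of_gmask ((mem_cls.mp hG).trans (mem_cls.mp hG').symm)
  exact eq_of_nx_eq hxy hag (cls_deg G' G) h

theorem cls_tau {x y z w : Fin n} (hxy : x ≠ y) (hxz : x ≠ z) (hxw : x ≠ w) (hyz : y ≠ z)
    (hyw : y ≠ w) (hzw : z ≠ w) {G0 G : Omega n d} (hG : G ∈ cls x y G0) :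
    tau x y z w G ∈ cls x y G0 := by
  rw [mem_cls, H57.gmask_tau_left hxy hxz hxw hyz hyw hzw]
  exact mem_cls.mp hG

theorem cls_nx_tau {x y z w : Fin n} (hxy : x ≠ y) (hzw : z ≠ w) {G0 G : Omega n d}
    (hG : G ∈ cls x y G0) (hz : z ∈ act x y G0.1) (hw : w ∈ act x y G0.1) :
    nx x y (tau x y z w G).1 = sw z w (nx x y G.1) := by
  have hz' : z ∈ act x y G.1 := by rw [cls_act hxy hG]; exact hz
  have hw' : w ∈ act x y G.1 := by rw [cls_act hxy hG]; exact hw
  rw [H57.tau_val hxy (mem_act.mp hz).1.symm (mem_act.mp hw).1.symm (mem_act.mp hz).2.1.symm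
    (mem_act.mp hw).2.1.symm hzw]
  exact nx_tauG hz' hw'

theorem cls_nx_surj {x y : Fin n} (hxy : x ≠ y) (G0 : Omega n d) {T : Finset (Fin n)}
    (hT : T ∈ (act x y G0.1).powersetCard (nx x y G0.1).card) :
    ∃ G ∈ cls x y G0, nx x y G.1 = T := by
  have key := mem_of_sw_closed (act x y G0.1) (nx x y G0.1).card
    ((cls x y G0).image (fun G : Omega n d => nx x y G.1))
    (by
      intro S hS
      obtain ⟨G, hG, rfl⟩ := mem_image.mp hS
      exact cls_nx_mem hxy hG)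
    (by
      intro S hS a ha b hb hab
      obtain ⟨G, hG, rfl⟩ := mem_image.mp hS
      rw [← cls_nx_tau hxy hab hG ha hb]
      exact mem_image_of_mem _ (cls_tau hxy (mem_act.mp ha).1.symm (mem_act.mp hb).1.symm
        (mem_act.mp ha).2.1.symm (mem_act.mp hb).2.1.symm hab hG))
    _ (nx x y G0.1) (mem_image_of_mem _ (self_mem_cls x y G0)) T hT rfl
  obtain ⟨G, hG, h⟩ := mem_image.mp key
  exact ⟨G, hG, h⟩

/-- Sums over a class are sums over the Johnson slice. -/
theorem sum_cls {x y : Fin n} (hxy : x ≠ y) (G0 : Omega n d) (F : Finset (Fin n) → ℝ) :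
    ∑ G ∈ cls x y G0, F (nx x y G.1)
      = ∑ S ∈ (act x y G0.1).powersetCard (nx x y G0.1).card, F S := by
  apply Finset.sum_nbij (fun G : Omega n d => nx x y G.1)
  · intro G hG; exact cls_nx_mem hxy hG
  · intro G hG G' hG' h
    exact cls_nx_inj hxy (Finset.mem_coe.mp hG) (Finset.mem_coe.mp hG') h
  · intro T hT
    obtain ⟨G, hG, h⟩ := cls_nx_surj hxy G0 (Finset.mem_coe.mp hT)
    exact ⟨G, Finset.mem_coe.mpr hG, h⟩
  · intro G _; rfl

theorem GR_cls {x y : Fin n} {G0 G : Omega n d} (hG : G ∈ cls x y G0) (f : Omega n d → ℝ) :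
    GR {x, y} f G = (∑ G' ∈ cls x y G0, f G') / ((cls x y G0).card : ℝ) := by
  rw [GR_apply]
  have h : univ.filter (fun G' : Omega n d => gmask {x, y} G'.1 = gmask {x, y} G.1)
      = cls x y G0 := by
    unfold cls
    rw [mem_cls.mp hG]
  rw [h]

theorem GRX_cls {x y z w : Fin n} {G0 G : Omega n d} (hG : G ∈ cls x y G0)
    (hS : Sep x y z w G.1) (f : Omega n d → ℝ) :
    GRX x y z w f G = (∑ G' ∈ (cls x y G0).filter (fun G' => Sep x y z w G'.1), f G') /
      (((cls x y G0).filter (fun G' => Sep x y z w G'.1)).card : ℝ) := by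
  have h : univ.filter (fun G' : Omega n d =>
      (gmask {x, y} G'.1, Sep x y z w G'.1) = (gmask {x, y} G.1, Sep x y z w G.1))
      = (cls x y G0).filter (fun G' => Sep x y z w G'.1) := by
    ext G'
    simp only [mem_filter, mem_univ, true_and, Prod.mk.injEq, mem_cls, eq_iff_iff]
    rw [mem_cls.mp hG]
    constructor
    · rintro ⟨h1, h2⟩; exact ⟨h1, h2.mpr hS⟩
    · rintro ⟨h1, h2⟩; exact ⟨h1, fun _ => hS, fun _ => h2⟩
  unfold GRX
  rw [cexp_apply, h]

/-- The function on the Johnson slice induced by `f` on the class of `G0`. -/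
noncomputable def slice (x y : Fin n) (G0 : Omega n d) (f : Omega n d → ℝ)
    (S : Finset (Fin n)) : ℝ :=
  ∑ G ∈ cls x y G0, (if nx x y G.1 = S then f G else 0)

/-- The mean of `f` over the class of `G0`. -/
noncomputable def cmean (x y : Fin n) (G0 : Omega n d) (f : Omega n d → ℝ) : ℝ :=
  (∑ G ∈ cls x y G0, f G) / ((cls x y G0).card : ℝ)

/-- The centred function on the Johnson slice. -/
noncomputable def slice0 (x y : Fin n) (G0 : Omega n d) (f : Omega n d → ℝ)
    (S : Finset (Fin n)) : ℝ :=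
  slice x y G0 f S - cmean x y G0 f

theorem slice_nx {x y : Fin n} (hxy : x ≠ y) {G0 G : Omega n d} (hG : G ∈ cls x y G0)
    (f : Omega n d → ℝ) : slice x y G0 f (nx x y G.1) = f G := by
  unfold slice
  rw [Finset.sum_eq_single_of_mem G hG]
  · rw [if_pos rfl]
  · intro G' hG' hne
    rw [if_neg]
    intro h
    exact hne (cls_nx_inj hxy hG' hG h)

theorem slice0_nx {x y : Fin n} (hxy : x ≠ y) {G0 G : Omega n d} (hG : G ∈ cls x y G0)
    (f : Omega n d → ℝ) : slice0 x y G0 f (nx x y G.1) = f G - cmean x y G0 f := by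
  unfold slice0
  rw [slice_nx hxy hG]

theorem GR_cls' {x y : Fin n} {G0 G : Omega n d} (hG : G ∈ cls x y G0) (f : Omega n d → ℝ) :
    GR {x, y} f G = cmean x y G0 f := GR_cls hG f

theorem sum_slice0 {x y : Fin n} (hxy : x ≠ y) (G0 : Omega n d) (f : Omega n d → ℝ) :
    ∑ S ∈ (act x y G0.1).powersetCard (nx x y G0.1).card, slice0 x y G0 f S = 0 := by
  rw [← sum_cls hxy G0 (slice0 x y G0 f)]
  rw [Finset.sum_congr rfl (fun G hG => slice0_nx hxy hG f), Finset.sum_sub_distrib,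
    Finset.sum_const, nsmul_eq_mul]
  unfold cmean
  have hpos : ((cls x y G0).card : ℝ) ≠ 0 := by
    have : 0 < (cls x y G0).card := Finset.card_pos.mpr ⟨G0, self_mem_cls x y G0⟩
    exact_mod_cast this.ne'
  field_simp
  ring

/-- Sums over the graphs of a class in `Sep` are sums over the separating sets of the slice. -/
theorem sum_cls_sep {x y z w : Fin n} (hxy : x ≠ y) (G0 : Omega n d)
    (hz : z ∈ act x y G0.1) (hw : w ∈ act x y G0.1) (h : Finset (Fin n) → ℝ) :
    ∑ G ∈ cls x y G0, (if Sep x y z w G.1 then h (nx x y G.1) else 0)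
      = ∑ S ∈ sep (act x y G0.1) (nx x y G0.1).card z w, h S := by
  have h1 : ∀ G ∈ cls x y G0, (if Sep x y z w G.1 then h (nx x y G.1) else 0)
      = (fun S : Finset (Fin n) => if ¬ (z ∈ S ↔ w ∈ S) then h S else 0) (nx x y G.1) := by
    intro G hG
    have hz' : z ∈ act x y G.1 := by rw [cls_act hxy hG]; exact hz
    have hw' : w ∈ act x y G.1 := by rw [cls_act hxy hG]; exact hw
    exact if_congr (sep_iff_nx hz' hw') rfl rfl
  calc ∑ G ∈ cls x y G0, (if Sep x y z w G.1 then h (nx x y G.1) else 0)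
      = ∑ G ∈ cls x y G0,
          (fun S : Finset (Fin n) => if ¬ (z ∈ S ↔ w ∈ S) then h S else 0) (nx x y G.1) :=
        Finset.sum_congr rfl h1
    _ = ∑ S ∈ (act x y G0.1).powersetCard (nx x y G0.1).card,
          (if ¬ (z ∈ S ↔ w ∈ S) then h S else 0) :=
        sum_cls hxy G0 (fun S : Finset (Fin n) => if ¬ (z ∈ S ↔ w ∈ S) then h S else 0)
    _ = ∑ S ∈ sep (act x y G0.1) (nx x y G0.1).card z w, h S := by
        unfold sep
        rw [Finset.sum_filter]

theorem t1_eq {x y z w : Fin n} (hxy : x ≠ y) (G0 : Omega n d) (f : Omega n d → ℝ)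
    (hz : z ∈ act x y G0.1) (hw : w ∈ act x y G0.1) :
    ∑ G ∈ cls x y G0,
        (if Sep x y z w G.1 then (GRX x y z w f G - GR {x, y} f G) ^ 2 else 0)
      = (∑ S ∈ sep (act x y G0.1) (nx x y G0.1).card z w, slice0 x y G0 f S) ^ 2
          / ((sep (act x y G0.1) (nx x y G0.1).card z w).card : ℝ) := by
  set c : ℝ := ((sep (act x y G0.1) (nx x y G0.1).card z w).card : ℝ) with hc
  set ys : ℝ := ∑ S ∈ sep (act x y G0.1) (nx x y G0.1).card z w, slice x y G0 f S with hys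
  set μ : ℝ := cmean x y G0 f with hμ
  have hsum : ∑ G' ∈ (cls x y G0).filter (fun G' => Sep x y z w G'.1), f G' = ys := by
    rw [Finset.sum_filter, hys, ← sum_cls_sep hxy G0 hz hw (slice x y G0 f)]
    apply Finset.sum_congr rfl
    intro G hG
    rw [slice_nx hxy hG]
  have hcard : (((cls x y G0).filter (fun G' => Sep x y z w G'.1)).card : ℝ) = c := by
    have h1 := sum_cls_sep hxy G0 hz hw (fun _ => (1 : ℝ))
    rw [Finset.sum_const, nsmul_eq_mul, mul_one, ← Finset.sum_filter, Finset.sum_const,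
      nsmul_eq_mul, mul_one] at h1
    rw [hc, ← h1]
  have h2 : ∀ G ∈ cls x y G0,
      (if Sep x y z w G.1 then (GRX x y z w f G - GR {x, y} f G) ^ 2 else 0)
      = (if Sep x y z w G.1 then (fun _ : Finset (Fin n) => (ys / c - μ) ^ 2) (nx x y G.1)
          else 0) := by
    intro G hG
    by_cases hS : Sep x y z w G.1
    · rw [if_pos hS, if_pos hS, GRX_cls hG hS, hsum, hcard, GR_cls' hG]
    · rw [if_neg hS, if_neg hS]
  rw [Finset.sum_congr rfl h2, sum_cls_sep hxy G0 hz hw (fun _ => (ys / c - μ) ^ 2),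
    Finset.sum_const, nsmul_eq_mul]
  have h3 : ∑ S ∈ sep (act x y G0.1) (nx x y G0.1).card z w, slice0 x y G0 f S
      = ys - c * μ := by
    unfold slice0
    rw [Finset.sum_sub_distrib, Finset.sum_const, nsmul_eq_mul]
  have key : ∀ (c ys μ : ℝ), c * (ys / c - μ) ^ 2 = (ys - c * μ) ^ 2 / c := by
    intro c ys μ
    by_cases hc0 : c = 0
    · subst hc0; simp
    · field_simp
  rw [h3]
  exact key c ys μ

theorem t1_zero {x y z w : Fin n} (hxy : x ≠ y) (hxz : x ≠ z) (hxw : x ≠ w) (hyz : y ≠ z)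
    (hyw : y ≠ w) (G0 : Omega n d) (f : Omega n d → ℝ)
    (h : ¬ (z ∈ act x y G0.1 ∧ w ∈ act x y G0.1)) :
    ∑ G ∈ cls x y G0,
        (if Sep x y z w G.1 then (GRX x y z w f G - GR {x, y} f G) ^ 2 else 0) = 0 := by
  apply Finset.sum_eq_zero
  intro G hG
  rw [if_neg]
  intro hS
  have := act_of_sep hxz hxw hyz hyw hS
  rw [cls_act hxy hG] at this
  exact h this

theorem t2_eq {x y z w : Fin n} (hxy : x ≠ y) (hzw : z ≠ w) (G0 : Omega n d)
    (f : Omega n d → ℝ) (hz : z ∈ act x y G0.1) (hw : w ∈ act x y G0.1) :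
    ∑ G ∈ cls x y G0, (f G - f (tau x y z w G)) ^ 2
      = ∑ S ∈ (act x y G0.1).powersetCard (nx x y G0.1).card,
          (slice0 x y G0 f S - slice0 x y G0 f (sw z w S)) ^ 2 := by
  rw [← sum_cls hxy G0 (fun S => (slice0 x y G0 f S - slice0 x y G0 f (sw z w S)) ^ 2)]
  apply Finset.sum_congr rfl
  intro G hG
  have hG' : tau x y z w G ∈ cls x y G0 :=
    cls_tau hxy (mem_act.mp hz).1.symm (mem_act.mp hw).1.symm (mem_act.mp hz).2.1.symm
      (mem_act.mp hw).2.1.symm hzw hG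
  show _ = (slice0 x y G0 f (nx x y G.1) - slice0 x y G0 f (sw z w (nx x y G.1))) ^ 2
  rw [← cls_nx_tau hxy hzw hG hz hw, slice0_nx hxy hG, slice0_nx hxy hG']
  ring

theorem var_cls {x y : Fin n} (hxy : x ≠ y) (G0 : Omega n d) (f : Omega n d → ℝ) :
    ∑ G ∈ cls x y G0, (f G - GR {x, y} f G) ^ 2
      = ∑ S ∈ (act x y G0.1).powersetCard (nx x y G0.1).card, slice0 x y G0 f S ^ 2 := by
  rw [← sum_cls hxy G0 (fun S => slice0 x y G0 f S ^ 2)]
  apply Finset.sum_congr rfl
  intro G hG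
  show _ = slice0 x y G0 f (nx x y G.1) ^ 2
  rw [slice0_nx hxy hG, GR_cls' hG]

/-- Sums over `A × A` as sums over all pairs with an indicator. -/
theorem sum_mem_mem (A : Finset (Fin n)) (F : Fin n → Fin n → ℝ) :
    ∑ a ∈ A, ∑ b ∈ A, F a b = ∑ z, ∑ w, (if z ∈ A ∧ w ∈ A then F z w else 0) := by
  have h1 : ∀ z : Fin n, ∑ w, (if z ∈ A ∧ w ∈ A then F z w else 0)
      = if z ∈ A then ∑ b ∈ A, F z b else 0 := by
    intro z
    by_cases hz : z ∈ A
    · simp only [hz, true_and, if_true]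
      rw [Finset.sum_ite_mem, Finset.univ_inter]
    · simp [hz]
  rw [Finset.sum_congr rfl (fun z _ => h1 z), Finset.sum_ite_mem, Finset.univ_inter]

/-- An inequality between sums over `Omega n d` follows from the inequalities on the classes. -/
theorem sum_le_sum_of_cls (x y : Fin n) (H1 H2 : Omega n d → ℝ)
    (h : ∀ G0 : Omega n d, ∑ G ∈ cls x y G0, H1 G ≤ ∑ G ∈ cls x y G0, H2 G) :
    ∑ G, H1 G ≤ ∑ G, H2 G := by
  have hmaps : ∀ G ∈ (univ : Finset (Omega n d)),
      gmask {x, y} G.1 ∈ univ.image (fun G : Omega n d => gmask {x, y} G.1) :=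
    fun G _ => mem_image_of_mem _ (mem_univ G)
  rw [← Finset.sum_fiberwise_of_maps_to hmaps H1, ← Finset.sum_fiberwise_of_maps_to hmaps H2]
  apply Finset.sum_le_sum
  intro μ hμ
  obtain ⟨G0, -, rfl⟩ := mem_image.mp hμ
  exact h G0

/-- The sharp Johnson-fibre bound on one class of `G - {x, y}`. -/
theorem J_class {x y : Fin n} (hxy : x ≠ y) (f : Omega n d → ℝ) (G0 : Omega n d) :
    ∑ G ∈ cls x y G0, ∑ z, ∑ w, (if x ≠ z ∧ x ≠ w ∧ y ≠ z ∧ y ≠ w ∧ z ≠ w then
        (if Sep x y z w G.1 then (GRX x y z w f G - GR {x, y} f G) ^ 2 else 0) else 0)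
      ≤ ∑ G ∈ cls x y G0, ((1 / 4) * ∑ z, ∑ w,
          (if x ≠ z ∧ x ≠ w ∧ y ≠ z ∧ y ≠ w ∧ z ≠ w then
            (f G - f (tau x y z w G)) ^ 2 else 0) - 2 * (f G - GR {x, y} f G) ^ 2) := by
  set A := act x y G0.1 with hA
  set k := (nx x y G0.1).card with hk
  set g0 := slice0 x y G0 f with hg0
  -- the left side
  have hL : ∑ G ∈ cls x y G0, ∑ z, ∑ w, (if x ≠ z ∧ x ≠ w ∧ y ≠ z ∧ y ≠ w ∧ z ≠ w then
        (if Sep x y z w G.1 then (GRX x y z w f G - GR {x, y} f G) ^ 2 else 0) else 0)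
      = ∑ a ∈ A, ∑ b ∈ A, (if a = b then 0 else
          (∑ S ∈ sep A k a b, g0 S) ^ 2 / ((sep A k a b).card : ℝ)) := by
    rw [Finset.sum_comm, sum_mem_mem]
    apply Finset.sum_congr rfl
    intro z _
    rw [Finset.sum_comm]
    apply Finset.sum_congr rfl
    intro w _
    by_cases hc : x ≠ z ∧ x ≠ w ∧ y ≠ z ∧ y ≠ w ∧ z ≠ w
    · simp only [if_pos hc]
      by_cases hm : z ∈ A ∧ w ∈ A
      · rw [if_pos hm, if_neg hc.2.2.2.2, t1_eq hxy G0 f hm.1 hm.2]
      · rw [if_neg hm, t1_zero hxy hc.1 hc.2.1 hc.2.2.1 hc.2.2.2.1 G0 f hm]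
    · simp only [if_neg hc, Finset.sum_const_zero]
      by_cases hm : z ∈ A ∧ w ∈ A
      · rw [if_pos hm]
        have hzw : z = w := by
          by_contra hne
          exact hc ⟨(mem_act.mp hm.1).1.symm, (mem_act.mp hm.2).1.symm,
            (mem_act.mp hm.1).2.1.symm, (mem_act.mp hm.2).2.1.symm, hne⟩
        rw [if_pos hzw]
      · rw [if_neg hm]
  -- the right side
  have hR1 : ∑ S ∈ A.powersetCard k, ∑ a ∈ A, ∑ b ∈ A, (g0 S - g0 (sw a b S)) ^ 2
      ≤ ∑ G ∈ cls x y G0, ∑ z, ∑ w, (if x ≠ z ∧ x ≠ w ∧ y ≠ z ∧ y ≠ w ∧ z ≠ w then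
            (f G - f (tau x y z w G)) ^ 2 else 0) := by
    have e1 : ∑ S ∈ A.powersetCard k, ∑ a ∈ A, ∑ b ∈ A, (g0 S - g0 (sw a b S)) ^ 2
        = ∑ a ∈ A, ∑ b ∈ A, ∑ S ∈ A.powersetCard k, (g0 S - g0 (sw a b S)) ^ 2 := by
      rw [Finset.sum_comm]
      apply Finset.sum_congr rfl
      intro a _
      rw [Finset.sum_comm]
    rw [e1, sum_mem_mem, Finset.sum_comm (s := cls x y G0)]
    apply Finset.sum_le_sum
    intro z _
    rw [Finset.sum_comm (s := cls x y G0)]
    apply Finset.sum_le_sum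
    intro w _
    have hnn : 0 ≤ ∑ G ∈ cls x y G0, (if x ≠ z ∧ x ≠ w ∧ y ≠ z ∧ y ≠ w ∧ z ≠ w then
            (f G - f (tau x y z w G)) ^ 2 else 0) := by
      apply Finset.sum_nonneg
      intro G _
      split_ifs
      · exact sq_nonneg _
      · exact le_refl _
    by_cases hm : z ∈ A ∧ w ∈ A
    · rw [if_pos hm]
      by_cases hzw : z = w
      · subst hzw
        have h0 : ∑ S ∈ A.powersetCard k, (g0 S - g0 (sw z z S)) ^ 2 = 0 := by
          apply Finset.sum_eq_zero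
          intro S _
          rw [sw_self]
          ring
        rw [h0]
        exact hnn
      · have hc : x ≠ z ∧ x ≠ w ∧ y ≠ z ∧ y ≠ w ∧ z ≠ w :=
          ⟨(mem_act.mp hm.1).1.symm, (mem_act.mp hm.2).1.symm,
            (mem_act.mp hm.1).2.1.symm, (mem_act.mp hm.2).2.1.symm, hzw⟩
        simp only [if_pos hc]
        rw [t2_eq hxy hzw G0 f hm.1 hm.2]
    · rw [if_neg hm]
      exact hnn
  have hR : (1 / 4) * ∑ S ∈ A.powersetCard k, ∑ a ∈ A, ∑ b ∈ A, (g0 S - g0 (sw a b S)) ^ 2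
        - 2 * ∑ S ∈ A.powersetCard k, g0 S ^ 2
      ≤ ∑ G ∈ cls x y G0, ((1 / 4) * ∑ z, ∑ w,
          (if x ≠ z ∧ x ≠ w ∧ y ≠ z ∧ y ≠ w ∧ z ≠ w then
            (f G - f (tau x y z w G)) ^ 2 else 0) - 2 * (f G - GR {x, y} f G) ^ 2) := by
    rw [Finset.sum_sub_distrib, ← Finset.mul_sum, ← Finset.mul_sum, var_cls hxy G0 f]
    linarith
  -- the Johnson slice inequalities
  have h0 : ∑ S ∈ A.powersetCard k, g0 S = 0 := sum_slice0 hxy G0 f
  have hJ1 := johnson_pair_sum A k g0 h0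
  have hJ2 := H36J.johnson_gap A k g0 h0
  rw [hL]
  refine le_trans ?_ hR
  rcases Nat.eq_zero_or_pos A.card with hm | hm
  · have hAe : A = ∅ := Finset.card_eq_zero.mp hm
    have hk0 : k = 0 := by
      have hsub : nx x y G0.1 ⊆ A := nx_subset_act x y G0.1
      rw [hAe, Finset.subset_empty] at hsub
      rw [hk, hsub, Finset.card_empty]
    rw [hk0, Finset.powersetCard_zero, Finset.sum_singleton] at h0
    rw [hk0, Finset.powersetCard_zero, Finset.sum_singleton, Finset.sum_singleton, h0, hAe]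
    simp
  · have hmpos : (0 : ℝ) < (A.card : ℝ) := by exact_mod_cast hm
    have hZ : 0 ≤ ∑ S ∈ A.powersetCard k, g0 S ^ 2 :=
      Finset.sum_nonneg (fun S _ => sq_nonneg _)
    have key : (A.card : ℝ) * (∑ a ∈ A, ∑ b ∈ A, (if a = b then 0 else
          (∑ S ∈ sep A k a b, g0 S) ^ 2 / ((sep A k a b).card : ℝ)))
        ≤ (A.card : ℝ) * ((1 / 4) * ∑ S ∈ A.powersetCard k, ∑ a ∈ A, ∑ b ∈ A,
            (g0 S - g0 (sw a b S)) ^ 2 - 2 * ∑ S ∈ A.powersetCard k, g0 S ^ 2) := by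
      nlinarith
    exact le_of_mul_le_mul_left key hmpos

/-- Moving the sum over the graphs outside two sums over vertices. -/
theorem sum3_comm (a : Fin n → Fin n → Omega n d → ℝ) :
    ∑ z, ∑ w, ∑ G : Omega n d, a z w G = ∑ G : Omega n d, ∑ z, ∑ w, a z w G :=
  calc ∑ z, ∑ w, ∑ G : Omega n d, a z w G
      = ∑ z, ∑ G : Omega n d, ∑ w, a z w G :=
        Finset.sum_congr rfl (fun z _ => Finset.sum_comm)
    _ = ∑ G : Omega n d, ∑ z, ∑ w, a z w G := Finset.sum_comm

/-- **Sharp Johnson-fibre bound** (graph instance): for a pole pair `{x, y}`, the sum over the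
ordered pairs `(z, w)` of distinct vertices outside the pair of the correction terms
`K x y z w f` is at most one quarter of the corresponding sum of the switch differences minus
twice the pair variance form `‖f - E[f | G - {x, y}]‖²`. -/
theorem J_graph_sharp (x y : Fin n) (hxy : x ≠ y) (f : Omega n d → ℝ) :
    ∑ z, ∑ w, (if x ≠ z ∧ x ≠ w ∧ y ≠ z ∧ y ≠ w ∧ z ≠ w then K x y z w f else 0)
      ≤ (1 / 4) * ∑ z, ∑ w, (if x ≠ z ∧ x ≠ w ∧ y ≠ z ∧ y ≠ w ∧ z ≠ w then
          ∑ G, (f G - f (tau x y z w G)) ^ 2 else 0)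
        - 2 * ip (f - GR {x, y} f) (f - GR {x, y} f) := by
  have hL : ∑ z, ∑ w, (if x ≠ z ∧ x ≠ w ∧ y ≠ z ∧ y ≠ w ∧ z ≠ w then K x y z w f else 0)
      = ∑ G : Omega n d, ∑ z, ∑ w, (if x ≠ z ∧ x ≠ w ∧ y ≠ z ∧ y ≠ w ∧ z ≠ w then
        (if Sep x y z w G.1 then (GRX x y z w f G - GR {x, y} f G) ^ 2 else 0) else 0) := by
    refine Eq.trans ?_ (sum3_comm (fun z w (G : Omega n d) =>
      (if x ≠ z ∧ x ≠ w ∧ y ≠ z ∧ y ≠ w ∧ z ≠ w then
        (if Sep x y z w G.1 then (GRX x y z w f G - GR {x, y} f G) ^ 2 else 0) else 0)))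
    apply Finset.sum_congr rfl
    intro z _
    apply Finset.sum_congr rfl
    intro w _
    by_cases hc : x ≠ z ∧ x ≠ w ∧ y ≠ z ∧ y ≠ w ∧ z ≠ w
    · simp only [if_pos hc]
      rfl
    · simp only [if_neg hc, Finset.sum_const_zero]
  have hR1 : ∑ z, ∑ w, (if x ≠ z ∧ x ≠ w ∧ y ≠ z ∧ y ≠ w ∧ z ≠ w then
          ∑ G, (f G - f (tau x y z w G)) ^ 2 else 0)
      = ∑ G : Omega n d, ∑ z, ∑ w, (if x ≠ z ∧ x ≠ w ∧ y ≠ z ∧ y ≠ w ∧ z ≠ w then
            (f G - f (tau x y z w G)) ^ 2 else 0) := by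
    refine Eq.trans ?_ (sum3_comm (fun z w (G : Omega n d) =>
      (if x ≠ z ∧ x ≠ w ∧ y ≠ z ∧ y ≠ w ∧ z ≠ w then
        (f G - f (tau x y z w G)) ^ 2 else 0)))
    apply Finset.sum_congr rfl
    intro z _
    apply Finset.sum_congr rfl
    intro w _
    by_cases hc : x ≠ z ∧ x ≠ w ∧ y ≠ z ∧ y ≠ w ∧ z ≠ w
    · simp only [if_pos hc]
    · simp only [if_neg hc, Finset.sum_const_zero]
  have hvar : ip (f - GR {x, y} f) (f - GR {x, y} f)
      = ∑ G : Omega n d, (f G - GR {x, y} f G) ^ 2 := by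
    unfold ip
    apply Finset.sum_congr rfl
    intro G _
    simp only [Pi.sub_apply]
    ring
  have hR : (1 / 4) * ∑ z, ∑ w, (if x ≠ z ∧ x ≠ w ∧ y ≠ z ∧ y ≠ w ∧ z ≠ w then
          ∑ G, (f G - f (tau x y z w G)) ^ 2 else 0)
        - 2 * ip (f - GR {x, y} f) (f - GR {x, y} f)
      = ∑ G : Omega n d, ((1 / 4) * ∑ z, ∑ w,
          (if x ≠ z ∧ x ≠ w ∧ y ≠ z ∧ y ≠ w ∧ z ≠ w then
            (f G - f (tau x y z w G)) ^ 2 else 0) - 2 * (f G - GR {x, y} f G) ^ 2) := by
    rw [Finset.sum_sub_distrib, ← Finset.mul_sum, ← Finset.mul_sum, hR1, hvar]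
  rw [hL, hR]
  exact sum_le_sum_of_cls x y
    (fun G : Omega n d => ∑ z, ∑ w, (if x ≠ z ∧ x ≠ w ∧ y ≠ z ∧ y ≠ w ∧ z ≠ w then
        (if Sep x y z w G.1 then (GRX x y z w f G - GR {x, y} f G) ^ 2 else 0) else 0))
    (fun G : Omega n d => (1 / 4) * ∑ z, ∑ w,
          (if x ≠ z ∧ x ≠ w ∧ y ≠ z ∧ y ≠ w ∧ z ≠ w then
            (f G - f (tau x y z w G)) ^ 2 else 0) - 2 * (f G - GR {x, y} f G) ^ 2)
    (fun G0 => J_class hxy f G0)

/-- **Johnson-fibre bound, weak form** (no gain). -/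
theorem J_graph_weak (x y : Fin n) (hxy : x ≠ y) (f : Omega n d → ℝ) :
    ∑ z, ∑ w, (if x ≠ z ∧ x ≠ w ∧ y ≠ z ∧ y ≠ w ∧ z ≠ w then K x y z w f else 0)
      ≤ (1 / 4) * ∑ z, ∑ w, (if x ≠ z ∧ x ≠ w ∧ y ≠ z ∧ y ≠ w ∧ z ≠ w then
          ∑ G, (f G - f (tau x y z w G)) ^ 2 else 0) := by
  have h := J_graph_sharp x y hxy f
  have h2 : 0 ≤ ip (f - GR {x, y} f) (f - GR {x, y} f) := ip_self_nonneg _
  linarith

end Vale.Agent.Lib.P335.H46G
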