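import Vale.Agent.Lib.P335.helper46.SumStep
import Vale.Agent.Lib.P335.helper46.GraphJ

/-!
The disjoint-pair inequality `S_par ≥ H` of the graph case of P335, reduced to the pairwise
inequality for two disjoint pole pairs: the Johnson-fibre bound `J_graph_sharp` and the
summation step are combined.
-/

namespace Vale.Agent.Lib.P335.H46G

open Finset
open scoped Classical
open Vale.Agent.Lib.P335 Vale.Agent.Lib.P335.Bip Vale.Agent.Lib.P335.Gr
open Vale.Agent.Lib.P335.H45G

variable {n : ℕ} {d : Fin n → ℕ}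

/-- **`S_par ≥ H` from the pairwise inequality.**  If the pairwise inequality `hpw` holds for
all quadruples of distinct vertices, then the sum of `⟨P_p f, P_q f⟩` over the ordered pairs of
disjoint pole pairs dominates `∑_p ‖P_p f‖² = ∑_p (⟨f, f⟩ - ⟨f, R_p f⟩)`. -/
theorem hparH_of_pairwise
    (hpw : ∀ x y z w : Fin n, x ≠ y → x ≠ z → x ≠ w → y ≠ z → y ≠ w → z ≠ w →
      ∀ f : Omega n d → ℝ,
        (1 / 4) * ∑ G, (f G - f (tau x y z w G)) ^ 2 - (1 / 2) * K x y z w f
          - (1 / 2) * K z w x y f ≤ ip (f - GR {x, y} f) (f - GR {z, w} f))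
    (f : Omega n d → ℝ) :
    ∑ p ∈ (univ : Finset (Fin n)).powersetCard 2, (ip f f - ip f (GR p f))
      ≤ ∑ p ∈ (univ : Finset (Fin n)).powersetCard 2,
          ∑ q ∈ (univ : Finset (Fin n)).powersetCard 2,
            (if Disjoint p q then ip (f - GR p f) (f - GR q f) else 0) := by
  have h := hparH_of_pairwise_J hpw (fun x y hxy f => J_graph_sharp x y hxy f) f
  have e : ∀ p : Finset (Fin n), ip (f - GR p f) (f - GR p f) = ip f f - ip f (GR p f) :=
    fun p => ip_sub_cexp _ f
  rw [Finset.sum_congr rfl (fun p _ => e p)] at h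
  exact h

/-- **`S_par ≥ 0` from the pairwise inequality** (weak form). -/
theorem hpar_of_pairwise
    (hpw : ∀ x y z w : Fin n, x ≠ y → x ≠ z → x ≠ w → y ≠ z → y ≠ w → z ≠ w →
      ∀ f : Omega n d → ℝ,
        (1 / 4) * ∑ G, (f G - f (tau x y z w G)) ^ 2 - (1 / 2) * K x y z w f
          - (1 / 2) * K z w x y f ≤ ip (f - GR {x, y} f) (f - GR {z, w} f))
    (f : Omega n d → ℝ) :
    0 ≤ ∑ p ∈ (univ : Finset (Fin n)).powersetCard 2,
          ∑ q ∈ (univ : Finset (Fin n)).powersetCard 2,
            (if Disjoint p q then ip (f - GR p f) (f - GR q f) else 0) :=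
  hpar_of_pairwise_J hpw (fun x y hxy f => J_graph_weak x y hxy f) f

end Vale.Agent.Lib.P335.H46G
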