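import Vale.Agent.Lib.P335.helper45.PairDefs
import Vale.Agent.Lib.P335.helper59.JohnsonSlice

/-!
Pair fibres of `Omega n d` (graph case of P335): for two vertices `x ≠ y`, a class of graphs with
the same `G - {x, y}` is parametrised by the set of active vertices adjacent to `x`
(active = adjacent to exactly one of `x`, `y`).
-/

namespace Vale.Agent.Lib.P335.H46G

open Finset
open scoped Classical
open Vale.Agent.Lib.P335 Vale.Agent.Lib.P335.Bip Vale.Agent.Lib.P335.Gr
open Vale.Agent.Lib.P335.H45G

variable {n : ℕ}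

/-- The degree as the number of neighbours (filter form). -/
theorem deg_card (G : SimpleGraph (Fin n)) (v : Fin n) :
    G.degree v = (univ.filter (fun b => G.Adj v b)).card := by
  rw [← SimpleGraph.card_neighborFinset_eq_degree]
  congr 1
  ext b
  simp [SimpleGraph.mem_neighborFinset]

/-- Splitting a filter of `univ` at two points. -/
theorem card_filter_split (P : Fin n → Prop) (x y : Fin n) (hxy : x ≠ y) :
    (univ.filter P).card = (univ.filter (fun b => b ≠ x ∧ b ≠ y ∧ P b)).card
      + (if P x then 1 else 0) + (if P y then 1 else 0) := by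
  have h1 : univ.filter P = (univ.filter (fun b => b ≠ x ∧ b ≠ y ∧ P b))
      ∪ ((univ.filter (fun b => b = x ∧ P b)) ∪ (univ.filter (fun b => b = y ∧ P b))) := by
    ext b
    simp only [mem_filter, mem_univ, true_and, mem_union]
    by_cases hbx : b = x
    · by_cases hby : b = y
      · exact absurd (hbx.symm.trans hby) hxy
      · simp [hbx, hxy]
    · by_cases hby : b = y
      · simp [hby]
      · simp [hbx, hby]
  have hd1 : Disjoint (univ.filter (fun b => b = x ∧ P b)) (univ.filter (fun b => b = y ∧ P b)) := by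
    rw [Finset.disjoint_left]
    intro b hb hb'
    simp only [mem_filter, mem_univ, true_and] at hb hb'
    exact hxy (hb.1.symm.trans hb'.1)
  have hd2 : Disjoint (univ.filter (fun b => b ≠ x ∧ b ≠ y ∧ P b))
      ((univ.filter (fun b => b = x ∧ P b)) ∪ (univ.filter (fun b => b = y ∧ P b))) := by
    rw [Finset.disjoint_left]
    intro b hb hb'
    simp only [mem_filter, mem_univ, true_and, mem_union] at hb hb'
    rcases hb' with h | h
    · exact hb.1 h.1
    · exact hb.2.1 h.1
  have hx : (univ.filter (fun b => b = x ∧ P b)).card = if P x then 1 else 0 := by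
    by_cases hP : P x
    · rw [if_pos hP]
      have : univ.filter (fun b => b = x ∧ P b) = {x} := by
        ext b
        simp only [mem_filter, mem_univ, true_and, mem_singleton]
        constructor
        · exact fun h => h.1
        · rintro rfl; exact ⟨rfl, hP⟩
      rw [this, card_singleton]
    · rw [if_neg hP]
      have : univ.filter (fun b => b = x ∧ P b) = ∅ := by
        ext b
        simp only [mem_filter, mem_univ, true_and, notMem_empty, iff_false, not_and]
        rintro rfl; exact hP
      rw [this, card_empty]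
  have hy : (univ.filter (fun b => b = y ∧ P b)).card = if P y then 1 else 0 := by
    by_cases hP : P y
    · rw [if_pos hP]
      have : univ.filter (fun b => b = y ∧ P b) = {y} := by
        ext b
        simp only [mem_filter, mem_univ, true_and, mem_singleton]
        constructor
        · exact fun h => h.1
        · rintro rfl; exact ⟨rfl, hP⟩
      rw [this, card_singleton]
    · rw [if_neg hP]
      have : univ.filter (fun b => b = y ∧ P b) = ∅ := by
        ext b
        simp only [mem_filter, mem_univ, true_and, notMem_empty, iff_false, not_and]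
        rintro rfl; exact hP
      rw [this, card_empty]
  rw [h1, card_union_of_disjoint hd2, card_union_of_disjoint hd1, hx, hy, add_assoc]

/-- The number of neighbours of `v` among `x`, `y`. -/
noncomputable def pcnt (G : SimpleGraph (Fin n)) (x y v : Fin n) : ℕ :=
  (if G.Adj x v then 1 else 0) + (if G.Adj y v then 1 else 0)

/-- `G` and `G'` agree on all pairs disjoint from `{x, y}`. -/
def AgreeOff (x y : Fin n) (G G' : SimpleGraph (Fin n)) : Prop :=
  ∀ a b, a ≠ x → a ≠ y → b ≠ x → b ≠ y → (G.Adj a b ↔ G'.Adj a b)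

theorem agreeOff_of_gmask {x y : Fin n} {G G' : SimpleGraph (Fin n)}
    (h : gmask {x, y} G = gmask {x, y} G') : AgreeOff x y G G' := by
  rw [gmask_eq_iff] at h
  intro a b hax hay hbx hby
  exact h a b (by simp [hax, hay]) (by simp [hbx, hby])

theorem gmask_of_agreeOff {x y : Fin n} {G G' : SimpleGraph (Fin n)}
    (h : AgreeOff x y G G') : gmask {x, y} G = gmask {x, y} G' := by
  rw [gmask_eq_iff]
  intro a b ha hb
  simp only [mem_insert, mem_singleton, not_or] at ha hb
  exact h a b ha.1 ha.2 hb.1 hb.2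

theorem deg_other (G : SimpleGraph (Fin n)) {x y : Fin n} (v : Fin n) (hxy : x ≠ y) :
    G.degree v = (univ.filter (fun b => b ≠ x ∧ b ≠ y ∧ G.Adj v b)).card + pcnt G x y v := by
  rw [deg_card, card_filter_split (fun b => G.Adj v b) x y hxy, add_assoc]
  unfold pcnt
  simp only [G.adj_comm v x, G.adj_comm v y]

theorem pcnt_eq {x y : Fin n} (hxy : x ≠ y) {G G' : SimpleGraph (Fin n)}
    (hag : AgreeOff x y G G') {v : Fin n} (hvx : v ≠ x) (hvy : v ≠ y)
    (hdeg : G.degree v = G'.degree v) : pcnt G x y v = pcnt G' x y v := by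
  have h1 := deg_other G v hxy
  have h2 := deg_other G' v hxy
  have h3 : univ.filter (fun b => b ≠ x ∧ b ≠ y ∧ G.Adj v b)
      = univ.filter (fun b => b ≠ x ∧ b ≠ y ∧ G'.Adj v b) := by
    apply Finset.filter_congr
    intro b _
    constructor
    · rintro ⟨hbx, hby, h⟩
      exact ⟨hbx, hby, (hag v b hvx hvy hbx hby).mp h⟩
    · rintro ⟨hbx, hby, h⟩
      exact ⟨hbx, hby, (hag v b hvx hvy hbx hby).mpr h⟩
  rw [h3] at h1
  omega

theorem deg_left (G : SimpleGraph (Fin n)) {x y : Fin n} (hxy : x ≠ y) :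
    G.degree x = (univ.filter (fun b => b ≠ x ∧ b ≠ y ∧ G.Adj x b)).card
      + (if G.Adj x y then 1 else 0) := by
  rw [deg_card, card_filter_split (fun b => G.Adj x b) x y hxy]
  simp

theorem deg_right (G : SimpleGraph (Fin n)) {x y : Fin n} (hxy : x ≠ y) :
    G.degree y = (univ.filter (fun b => b ≠ x ∧ b ≠ y ∧ G.Adj y b)).card
      + (if G.Adj x y then 1 else 0) := by
  rw [deg_card, card_filter_split (fun b => G.Adj y b) x y hxy]
  simp [G.adj_comm y x]

theorem sum_pcnt (G : SimpleGraph (Fin n)) (x y : Fin n) :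
    (univ.filter (fun b => b ≠ x ∧ b ≠ y ∧ G.Adj x b)).card
      + (univ.filter (fun b => b ≠ x ∧ b ≠ y ∧ G.Adj y b)).card
      = ∑ b : Fin n, (if b ≠ x ∧ b ≠ y then pcnt G x y b else 0) := by
  rw [Finset.card_filter, Finset.card_filter, ← Finset.sum_add_distrib]
  apply Finset.sum_congr rfl
  intro b _
  unfold pcnt
  by_cases hbx : b = x
  · simp [hbx]
  · by_cases hby : b = y
    · simp [hby]
    · simp [hbx, hby]

/-- In a pair class the edge `xy` is determined. -/
theorem adj_pair_iff {x y : Fin n} (hxy : x ≠ y) {G G' : SimpleGraph (Fin n)}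
    (hag : AgreeOff x y G G') (hdeg : ∀ v, G.degree v = G'.degree v) :
    G.Adj x y ↔ G'.Adj x y := by
  have h1 := deg_left G hxy
  have h2 := deg_right G hxy
  have h1' := deg_left G' hxy
  have h2' := deg_right G' hxy
  have h3 := sum_pcnt G x y
  have h3' := sum_pcnt G' x y
  have h4 : ∑ b : Fin n, (if b ≠ x ∧ b ≠ y then pcnt G x y b else 0)
      = ∑ b : Fin n, (if b ≠ x ∧ b ≠ y then pcnt G' x y b else 0) := by
    apply Finset.sum_congr rfl
    intro b _
    by_cases hb : b ≠ x ∧ b ≠ y
    · rw [if_pos hb, if_pos hb]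
      exact pcnt_eq hxy hag hb.1 hb.2 (hdeg b)
    · rw [if_neg hb, if_neg hb]
  have hx := hdeg x
  have hy := hdeg y
  by_cases hG : G.Adj x y <;> by_cases hG' : G'.Adj x y
  · exact ⟨fun _ => hG', fun _ => hG⟩
  · exfalso
    rw [if_pos hG] at h1 h2
    rw [if_neg hG'] at h1' h2'
    omega
  · exfalso
    rw [if_neg hG] at h1 h2
    rw [if_pos hG'] at h1' h2'
    omega
  · exact ⟨fun h => absurd h hG, fun h => absurd h hG'⟩

/-- The active vertices of the pair `{x, y}`: the vertices outside the pair adjacent to exactly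
one of `x`, `y`. -/
noncomputable def act (x y : Fin n) (G : SimpleGraph (Fin n)) : Finset (Fin n) :=
  univ.filter (fun v => v ≠ x ∧ v ≠ y ∧ ¬ (G.Adj x v ↔ G.Adj y v))

/-- The active vertices adjacent to `x`. -/
noncomputable def nx (x y : Fin n) (G : SimpleGraph (Fin n)) : Finset (Fin n) :=
  univ.filter (fun v => v ≠ x ∧ v ≠ y ∧ G.Adj x v ∧ ¬ G.Adj y v)

theorem mem_act {x y : Fin n} {G : SimpleGraph (Fin n)} {v : Fin n} :
    v ∈ act x y G ↔ v ≠ x ∧ v ≠ y ∧ ¬ (G.Adj x v ↔ G.Adj y v) := by
  unfold act; simp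

theorem mem_nx {x y : Fin n} {G : SimpleGraph (Fin n)} {v : Fin n} :
    v ∈ nx x y G ↔ v ≠ x ∧ v ≠ y ∧ G.Adj x v ∧ ¬ G.Adj y v := by
  unfold nx; simp

theorem mem_nx_of_act {x y : Fin n} {G : SimpleGraph (Fin n)} {v : Fin n} (hv : v ∈ act x y G) :
    v ∈ nx x y G ↔ G.Adj x v := by
  rw [mem_act] at hv
  rw [mem_nx]
  constructor
  · exact fun h => h.2.2.1
  · intro h
    refine ⟨hv.1, hv.2.1, h, ?_⟩
    intro h'
    exact hv.2.2 ⟨fun _ => h', fun _ => h⟩

theorem nx_subset_act (x y : Fin n) (G : SimpleGraph (Fin n)) : nx x y G ⊆ act x y G := by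
  intro v hv
  rw [mem_nx] at hv
  rw [mem_act]
  exact ⟨hv.1, hv.2.1, fun h => hv.2.2.2 (h.mp hv.2.2.1)⟩

/-- The four adjacencies of a vertex outside the pair are tied by the count. -/
theorem adj_of_pcnt {x y : Fin n} (hxy : x ≠ y) {G G' : SimpleGraph (Fin n)}
    (hag : AgreeOff x y G G') (hdeg : ∀ v, G.degree v = G'.degree v) {v : Fin n}
    (hvx : v ≠ x) (hvy : v ≠ y) :
    ((G.Adj x v ↔ G.Adj y v) ↔ (G'.Adj x v ↔ G'.Adj y v)) ∧
      ((G.Adj x v ∧ G.Adj y v) ↔ (G'.Adj x v ∧ G'.Adj y v)) := by
  have hp := pcnt_eq hxy hag hvx hvy (hdeg v)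
  unfold pcnt at hp
  by_cases h1 : G.Adj x v <;> by_cases h2 : G.Adj y v <;> by_cases h3 : G'.Adj x v <;>
    by_cases h4 : G'.Adj y v <;> simp_all

/-- The active set is constant on a pair class. -/
theorem act_eq {x y : Fin n} (hxy : x ≠ y) {G G' : SimpleGraph (Fin n)}
    (hag : AgreeOff x y G G') (hdeg : ∀ v, G.degree v = G'.degree v) :
    act x y G = act x y G' := by
  ext v
  rw [mem_act, mem_act]
  constructor
  · rintro ⟨hvx, hvy, h⟩
    exact ⟨hvx, hvy, fun h' => h ((adj_of_pcnt hxy hag hdeg hvx hvy).1.mpr h')⟩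
  · rintro ⟨hvx, hvy, h⟩
    exact ⟨hvx, hvy, fun h' => h ((adj_of_pcnt hxy hag hdeg hvx hvy).1.mp h')⟩

/-- The number of active neighbours of `x` is constant on a pair class. -/
theorem card_nx_eq {x y : Fin n} (hxy : x ≠ y) {G G' : SimpleGraph (Fin n)}
    (hag : AgreeOff x y G G') (hdeg : ∀ v, G.degree v = G'.degree v) :
    (nx x y G).card = (nx x y G').card := by
  have key : ∀ H : SimpleGraph (Fin n),
      (univ.filter (fun b => b ≠ x ∧ b ≠ y ∧ H.Adj x b)).card
        = (nx x y H).card + (univ.filter (fun b => b ≠ x ∧ b ≠ y ∧ H.Adj x b ∧ H.Adj y b)).card := by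
    intro H
    rw [← card_union_of_disjoint]
    · congr 1
      ext b
      simp only [mem_filter, mem_univ, true_and, mem_union, mem_nx]
      tauto
    · rw [Finset.disjoint_left]
      intro b hb hb'
      rw [mem_nx] at hb
      simp only [mem_filter, mem_univ, true_and] at hb'
      exact hb.2.2.2 hb'.2.2.2
  have hboth : univ.filter (fun b => b ≠ x ∧ b ≠ y ∧ G.Adj x b ∧ G.Adj y b)
      = univ.filter (fun b => b ≠ x ∧ b ≠ y ∧ G'.Adj x b ∧ G'.Adj y b) := by
    apply Finset.filter_congr
    intro b _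
    constructor
    · rintro ⟨hbx, hby, h⟩
      exact ⟨hbx, hby, (adj_of_pcnt hxy hag hdeg hbx hby).2.mp h⟩
    · rintro ⟨hbx, hby, h⟩
      exact ⟨hbx, hby, (adj_of_pcnt hxy hag hdeg hbx hby).2.mpr h⟩
  have h1 := deg_left G hxy
  have h1' := deg_left G' hxy
  have h2 := key G
  have h2' := key G'
  have h3 := hdeg x
  have h4 := adj_pair_iff hxy hag hdeg
  rw [hboth] at h2
  by_cases hG : G.Adj x y
  · rw [if_pos hG] at h1
    rw [if_pos (h4.mp hG)] at h1'
    omega
  · rw [if_neg hG] at h1
    rw [if_neg (fun h => hG (h4.mpr h))] at h1'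
    omega

/-- A graph of a pair class is determined by its set of active neighbours of `x`. -/
theorem eq_of_nx_eq {x y : Fin n} (hxy : x ≠ y) {G G' : SimpleGraph (Fin n)}
    (hag : AgreeOff x y G G') (hdeg : ∀ v, G.degree v = G'.degree v)
    (hnx : nx x y G = nx x y G') : G = G' := by
  have hXY : ∀ v, v ≠ x → v ≠ y → (G.Adj x v ↔ G'.Adj x v) ∧ (G.Adj y v ↔ G'.Adj y v) := by
    intro v hvx hvy
    have hp := pcnt_eq hxy hag hvx hvy (hdeg v)
    unfold pcnt at hp
    have hm : v ∈ nx x y G ↔ v ∈ nx x y G' := by rw [hnx]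
    rw [mem_nx, mem_nx] at hm
    by_cases h1 : G.Adj x v <;> by_cases h2 : G.Adj y v <;> by_cases h3 : G'.Adj x v <;>
      by_cases h4 : G'.Adj y v <;> simp_all
  have hxy' := adj_pair_iff hxy hag hdeg
  ext a b
  by_cases hax : a = x
  · subst hax
    by_cases hbx : b = a
    · subst hbx
      exact ⟨fun h => absurd h (G.loopless.irrefl b), fun h => absurd h (G'.loopless.irrefl b)⟩
    · by_cases hby : b = y
      · subst hby; exact hxy'
      · exact (hXY b hbx hby).1
  · by_cases hay : a = y
    · subst hay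
      by_cases hbx : b = x
      · subst hbx
        rw [G.adj_comm, G'.adj_comm]; exact hxy'
      · by_cases hby : b = a
        · subst hby
          exact ⟨fun h => absurd h (G.loopless.irrefl b), fun h => absurd h (G'.loopless.irrefl b)⟩
        · exact (hXY b hbx hby).2
    · by_cases hbx : b = x
      · subst hbx
        rw [G.adj_comm, G'.adj_comm]; exact (hXY a hax hay).1
      · by_cases hby : b = y
        · subst hby
          rw [G.adj_comm, G'.adj_comm]; exact (hXY a hax hay).2
        · exact hag a b hax hay hbx hby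

end Vale.Agent.Lib.P335.H46G
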