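import Vale.Agent.Lib.P335.helper45.PairDefs

/-!
The summation step of the graph case of P335: the pairwise inequality for two disjoint pole
pairs together with the Johnson-fibre bound for the correction terms gives the nonnegativity
(and, in the sharp form, the lower bound by the pair form) of the sum of the products of the
pair projections over ordered pairs of disjoint pole pairs.
-/

namespace Vale.Agent.Lib.P335.H46G

open Finset
open scoped Classical
open Vale.Agent.Lib.P335 Vale.Agent.Lib.P335.Bip Vale.Agent.Lib.P335.Gr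
open Vale.Agent.Lib.P335.H45G

variable {n : ℕ}

/-- A two-element set is `{x, y}` for exactly two ordered pairs `(x, y)` with `x ≠ y`. -/
theorem card_pair_fibre (p : Finset (Fin n)) (hp : p.card = 2) :
    ((univ : Finset (Fin n × Fin n)).filter
      (fun t => t.1 ≠ t.2 ∧ ({t.1, t.2} : Finset (Fin n)) = p)).card = 2 := by
  obtain ⟨a, b, hab, rfl⟩ := Finset.card_eq_two.mp hp
  have h : (univ.filter (fun t : Fin n × Fin n =>
      t.1 ≠ t.2 ∧ ({t.1, t.2} : Finset (Fin n)) = {a, b})) = {(a, b), (b, a)} := by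
    ext ⟨u, v⟩
    simp only [mem_filter, mem_univ, true_and, mem_insert, mem_singleton, Prod.mk.injEq]
    constructor
    · rintro ⟨huv, h⟩
      have hu : u ∈ ({a, b} : Finset (Fin n)) := by rw [← h]; simp
      have hv : v ∈ ({a, b} : Finset (Fin n)) := by rw [← h]; simp
      simp only [mem_insert, mem_singleton] at hu hv
      rcases hu with rfl | rfl <;> rcases hv with rfl | rfl
      · exact absurd rfl huv
      · left; exact ⟨rfl, rfl⟩
      · right; exact ⟨rfl, rfl⟩
      · exact absurd rfl huv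
    · rintro (⟨rfl, rfl⟩ | ⟨rfl, rfl⟩)
      · exact ⟨hab, rfl⟩
      · exact ⟨hab.symm, Finset.pair_comm _ _⟩
  rw [h, Finset.card_pair]
  intro h'
  exact hab (Prod.mk.inj h').1

/-- A sum over ordered pairs of distinct points of a function of the unordered pair is twice the
sum over the two-element sets. -/
theorem sum_pairs (g : Finset (Fin n) → ℝ) :
    ∑ s : Fin n × Fin n, (if s.1 ≠ s.2 then g {s.1, s.2} else 0)
      = 2 * ∑ p ∈ (univ : Finset (Fin n)).powersetCard 2, g p := by
  rw [← Finset.sum_filter]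
  have hmaps : ∀ t ∈ (univ : Finset (Fin n × Fin n)).filter (fun t => t.1 ≠ t.2),
      ({t.1, t.2} : Finset (Fin n)) ∈ (univ : Finset (Fin n)).powersetCard 2 := by
    intro t ht
    rw [mem_filter] at ht
    rw [mem_powersetCard]
    exact ⟨subset_univ _, Finset.card_pair ht.2⟩
  rw [← Finset.sum_fiberwise_of_maps_to hmaps, Finset.mul_sum]
  apply Finset.sum_congr rfl
  intro p hp
  have h1 : ∀ t ∈ ((univ : Finset (Fin n × Fin n)).filter (fun t => t.1 ≠ t.2)).filter
      (fun t => ({t.1, t.2} : Finset (Fin n)) = p), g {t.1, t.2} = g p := by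
    intro t ht
    rw [(mem_filter.mp ht).2]
  rw [Finset.sum_congr rfl h1, Finset.sum_const, Finset.filter_filter,
    card_pair_fibre p (mem_powersetCard.mp hp).2]
  simp

/-- All four points are distinct. -/
def D4 (s t : Fin n × Fin n) : Prop :=
  s.1 ≠ s.2 ∧ s.1 ≠ t.1 ∧ s.1 ≠ t.2 ∧ s.2 ≠ t.1 ∧ s.2 ≠ t.2 ∧ t.1 ≠ t.2

theorem D4_symm (s t : Fin n × Fin n) : D4 s t ↔ D4 t s := by
  unfold D4
  constructor
  · rintro ⟨h1, h2, h3, h4, h5, h6⟩
    exact ⟨h6, h2.symm, h4.symm, h3.symm, h5.symm, h1⟩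
  · rintro ⟨h1, h2, h3, h4, h5, h6⟩
    exact ⟨h6, h2.symm, h4.symm, h3.symm, h5.symm, h1⟩

theorem D4_iff (s t : Fin n × Fin n) :
    D4 s t ↔ s.1 ≠ s.2 ∧ t.1 ≠ t.2 ∧
      Disjoint ({s.1, s.2} : Finset (Fin n)) ({t.1, t.2} : Finset (Fin n)) := by
  unfold D4
  rw [Finset.disjoint_left]
  constructor
  · rintro ⟨h1, h2, h3, h4, h5, h6⟩
    refine ⟨h1, h6, ?_⟩
    intro a ha hb
    simp only [mem_insert, mem_singleton] at ha hb
    rcases ha with ha | ha <;> rcases hb with hb | hb
    · exact h2 (ha.symm.trans hb)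
    · exact h3 (ha.symm.trans hb)
    · exact h4 (ha.symm.trans hb)
    · exact h5 (ha.symm.trans hb)
  · rintro ⟨h1, h6, hd⟩
    refine ⟨h1, ?_, ?_, ?_, ?_, h6⟩
    · intro h; exact hd (a := s.1) (by simp) (by simp [h])
    · intro h; exact hd (a := s.1) (by simp) (by simp [h])
    · intro h; exact hd (a := s.2) (by simp) (by simp [h])
    · intro h; exact hd (a := s.2) (by simp) (by simp [h])

/-- A sum over ordered quadruples of distinct points of a function of the two unordered pairs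
is four times the sum over the ordered pairs of disjoint two-element sets. -/
theorem sum_quads (F : Finset (Fin n) → Finset (Fin n) → ℝ) :
    ∑ s : Fin n × Fin n, ∑ t : Fin n × Fin n,
        (if D4 s t then F {s.1, s.2} {t.1, t.2} else 0)
      = 4 * ∑ p ∈ (univ : Finset (Fin n)).powersetCard 2,
          ∑ q ∈ (univ : Finset (Fin n)).powersetCard 2, if Disjoint p q then F p q else 0 := by
  have h1 : ∀ s : Fin n × Fin n, ∑ t : Fin n × Fin n,
      (if D4 s t then F {s.1, s.2} {t.1, t.2} else 0)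
      = if s.1 ≠ s.2 then 2 * ∑ q ∈ (univ : Finset (Fin n)).powersetCard 2,
          (if Disjoint ({s.1, s.2} : Finset (Fin n)) q then F {s.1, s.2} q else 0) else 0 := by
    intro s
    by_cases hs : s.1 ≠ s.2
    · rw [if_pos hs, ← sum_pairs]
      apply Finset.sum_congr rfl
      intro t _
      by_cases ht : t.1 ≠ t.2
      · rw [if_pos ht]
        by_cases hd : Disjoint ({s.1, s.2} : Finset (Fin n)) ({t.1, t.2} : Finset (Fin n))
        · rw [if_pos hd, if_pos ((D4_iff s t).mpr ⟨hs, ht, hd⟩)]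
        · rw [if_neg hd, if_neg (fun h => hd ((D4_iff s t).mp h).2.2)]
      · rw [if_neg ht, if_neg (fun h => ht ((D4_iff s t).mp h).2.1)]
    · rw [if_neg hs]
      apply Finset.sum_eq_zero
      intro t _
      rw [if_neg (fun h => hs ((D4_iff s t).mp h).1)]
  rw [Finset.sum_congr rfl (fun s _ => h1 s)]
  have h2 := sum_pairs (n := n) (fun p => 2 * ∑ q ∈ (univ : Finset (Fin n)).powersetCard 2,
          (if Disjoint p q then F p q else 0))
  rw [h2, ← Finset.mul_sum]
  ring

variable {d : Fin n → ℕ}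

/-- **Summation step**, general constant.  From the pairwise inequality for disjoint pole pairs
(`hpw`) and the Johnson-fibre bound for the correction terms with a gain `c` (`hJ`), the sum of
`⟨P_p f, P_q f⟩` over ordered pairs of disjoint pole pairs is at least `(c / 2) ∑_p ‖P_p f‖²`. -/
theorem sum_step
    (hpw : ∀ x y z w : Fin n, x ≠ y → x ≠ z → x ≠ w → y ≠ z → y ≠ w → z ≠ w →
      ∀ f : Omega n d → ℝ,
        (1 / 4) * ∑ G, (f G - f (tau x y z w G)) ^ 2 - (1 / 2) * K x y z w f
          - (1 / 2) * K z w x y f ≤ ip (f - GR {x, y} f) (f - GR {z, w} f))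
    (c : ℝ)
    (hJ : ∀ x y : Fin n, x ≠ y → ∀ f : Omega n d → ℝ,
      ∑ z, ∑ w, (if x ≠ z ∧ x ≠ w ∧ y ≠ z ∧ y ≠ w ∧ z ≠ w then K x y z w f else 0)
        ≤ (1 / 4) * ∑ z, ∑ w, (if x ≠ z ∧ x ≠ w ∧ y ≠ z ∧ y ≠ w ∧ z ≠ w then
            ∑ G, (f G - f (tau x y z w G)) ^ 2 else 0)
          - c * ip (f - GR {x, y} f) (f - GR {x, y} f))
    (f : Omega n d → ℝ) :
    (c / 2) * ∑ p ∈ (univ : Finset (Fin n)).powersetCard 2, ip (f - GR p f) (f - GR p f)
      ≤ ∑ p ∈ (univ : Finset (Fin n)).powersetCard 2,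
          ∑ q ∈ (univ : Finset (Fin n)).powersetCard 2,
            if Disjoint p q then ip (f - GR p f) (f - GR q f) else 0 := by
  set e : Fin n × Fin n → Fin n × Fin n → ℝ :=
    fun s t => (1 / 4) * ∑ G, (f G - f (tau s.1 s.2 t.1 t.2 G)) ^ 2 with he
  set k : Fin n × Fin n → Fin n × Fin n → ℝ := fun s t => K s.1 s.2 t.1 t.2 f with hk
  set a : Fin n × Fin n → Fin n × Fin n → ℝ :=
    fun s t => ip (f - GR {s.1, s.2} f) (f - GR {t.1, t.2} f) with ha
  -- pairwise inequality, summed
  have hB : ∑ s : Fin n × Fin n, ∑ t : Fin n × Fin n,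
      (if D4 s t then e s t - (1 / 2) * k s t - (1 / 2) * k t s else 0)
      ≤ ∑ s : Fin n × Fin n, ∑ t : Fin n × Fin n, (if D4 s t then a s t else 0) := by
    apply Finset.sum_le_sum
    intro s _
    apply Finset.sum_le_sum
    intro t _
    by_cases h : D4 s t
    · rw [if_pos h, if_pos h]
      obtain ⟨h1, h2, h3, h4, h5, h6⟩ := h
      exact hpw s.1 s.2 t.1 t.2 h1 h2 h3 h4 h5 h6 f
    · rw [if_neg h, if_neg h]
  -- symmetry of the correction sum
  have hC : ∑ s : Fin n × Fin n, ∑ t : Fin n × Fin n, (if D4 s t then k t s else 0)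
      = ∑ s : Fin n × Fin n, ∑ t : Fin n × Fin n, (if D4 s t then k s t else 0) := by
    rw [Finset.sum_comm]
    apply Finset.sum_congr rfl
    intro s _
    apply Finset.sum_congr rfl
    intro t _
    by_cases h : D4 s t
    · rw [if_pos h, if_pos ((D4_symm s t).mp h)]
    · rw [if_neg h, if_neg (fun h' => h ((D4_symm s t).mpr h'))]
  have hD : ∑ s : Fin n × Fin n, ∑ t : Fin n × Fin n,
      (if D4 s t then e s t - (1 / 2) * k s t - (1 / 2) * k t s else 0)
      = ∑ s : Fin n × Fin n, ∑ t : Fin n × Fin n, (if D4 s t then e s t else 0)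
        - ∑ s : Fin n × Fin n, ∑ t : Fin n × Fin n, (if D4 s t then k s t else 0) := by
    have h1 : ∀ s t : Fin n × Fin n,
        (if D4 s t then e s t - (1 / 2) * k s t - (1 / 2) * k t s else 0)
        = (if D4 s t then e s t else 0) - (1 / 2) * (if D4 s t then k s t else 0)
          - (1 / 2) * (if D4 s t then k t s else 0) := by
      intro s t
      by_cases h : D4 s t
      · simp only [if_pos h]
      · simp only [if_neg h]; ring
    simp only [h1, Finset.sum_sub_distrib, ← Finset.mul_sum]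
    rw [hC]
    ring
  -- the Johnson bound, summed
  have hE : ∑ s : Fin n × Fin n, ∑ t : Fin n × Fin n, (if D4 s t then k s t else 0)
      ≤ ∑ s : Fin n × Fin n, ∑ t : Fin n × Fin n, (if D4 s t then e s t else 0)
        - c * (2 * ∑ p ∈ (univ : Finset (Fin n)).powersetCard 2,
            ip (f - GR p f) (f - GR p f)) := by
    rw [← sum_pairs (fun p => ip (f - GR p f) (f - GR p f)), Finset.mul_sum,
      ← Finset.sum_sub_distrib]
    apply Finset.sum_le_sum
    intro s _
    by_cases hs : s.1 ≠ s.2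
    · rw [if_pos hs]
      have hJ' := hJ s.1 s.2 hs f
      have hcond : ∀ t : Fin n × Fin n,
          (s.1 ≠ t.1 ∧ s.1 ≠ t.2 ∧ s.2 ≠ t.1 ∧ s.2 ≠ t.2 ∧ t.1 ≠ t.2) ↔ D4 s t := by
        intro t
        unfold D4
        constructor
        · intro h; exact ⟨hs, h⟩
        · intro h; exact h.2
      have e1 : ∑ t : Fin n × Fin n, (if D4 s t then k s t else 0)
          = ∑ z, ∑ w, (if s.1 ≠ z ∧ s.1 ≠ w ∧ s.2 ≠ z ∧ s.2 ≠ w ∧ z ≠ w then
              K s.1 s.2 z w f else 0) := by
        rw [Fintype.sum_prod_type]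
        apply Finset.sum_congr rfl
        intro z _
        apply Finset.sum_congr rfl
        intro w _
        exact if_congr (hcond (z, w)).symm rfl rfl
      have e2 : ∑ t : Fin n × Fin n, (if D4 s t then e s t else 0)
          = (1 / 4) * ∑ z, ∑ w, (if s.1 ≠ z ∧ s.1 ≠ w ∧ s.2 ≠ z ∧ s.2 ≠ w ∧ z ≠ w then
              ∑ G, (f G - f (tau s.1 s.2 z w G)) ^ 2 else 0) := by
        rw [Fintype.sum_prod_type, Finset.mul_sum]
        apply Finset.sum_congr rfl
        intro z _
        rw [Finset.mul_sum]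
        apply Finset.sum_congr rfl
        intro w _
        by_cases h : D4 s (z, w)
        · rw [if_pos h, if_pos ((hcond (z, w)).mpr h)]
        · rw [if_neg h, if_neg (fun h' => h ((hcond (z, w)).mp h')), mul_zero]
      rw [e1, e2]
      exact hJ'
    · rw [if_neg hs, mul_zero, sub_zero]
      apply le_of_eq
      apply Finset.sum_congr rfl
      intro t _
      rw [if_neg (fun h => hs h.1), if_neg (fun h => hs h.1)]
  have hF := sum_quads (n := n) (fun p q => ip (f - GR p f) (f - GR q f))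
  have hF' : ∑ s : Fin n × Fin n, ∑ t : Fin n × Fin n, (if D4 s t then a s t else 0)
      = 4 * ∑ p ∈ (univ : Finset (Fin n)).powersetCard 2,
          ∑ q ∈ (univ : Finset (Fin n)).powersetCard 2,
            if Disjoint p q then ip (f - GR p f) (f - GR q f) else 0 := hF
  rw [hD] at hB
  rw [hF'] at hB
  linarith

/-- **Summation step, weak form**: the sum of `⟨P_p f, P_q f⟩` over ordered pairs of disjoint
pole pairs is nonnegative. -/
theorem hpar_of_pairwise_J
    (hpw : ∀ x y z w : Fin n, x ≠ y → x ≠ z → x ≠ w → y ≠ z → y ≠ w → z ≠ w →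
      ∀ f : Omega n d → ℝ,
        (1 / 4) * ∑ G, (f G - f (tau x y z w G)) ^ 2 - (1 / 2) * K x y z w f
          - (1 / 2) * K z w x y f ≤ ip (f - GR {x, y} f) (f - GR {z, w} f))
    (hJ : ∀ x y : Fin n, x ≠ y → ∀ f : Omega n d → ℝ,
      ∑ z, ∑ w, (if x ≠ z ∧ x ≠ w ∧ y ≠ z ∧ y ≠ w ∧ z ≠ w then K x y z w f else 0)
        ≤ (1 / 4) * ∑ z, ∑ w, (if x ≠ z ∧ x ≠ w ∧ y ≠ z ∧ y ≠ w ∧ z ≠ w then
            ∑ G, (f G - f (tau x y z w G)) ^ 2 else 0))
    (f : Omega n d → ℝ) :
    0 ≤ ∑ p ∈ (univ : Finset (Fin n)).powersetCard 2,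
          ∑ q ∈ (univ : Finset (Fin n)).powersetCard 2,
            if Disjoint p q then ip (f - GR p f) (f - GR q f) else 0 := by
  have h := sum_step hpw 0 (fun x y hxy f => by
    have := hJ x y hxy f
    linarith) f
  linarith

/-- **Summation step, sharp form**: with the Johnson gap in the fibre bound (gain `2`), the sum
of `⟨P_p f, P_q f⟩` over ordered pairs of disjoint pole pairs dominates `∑_p ‖P_p f‖²`. -/
theorem hparH_of_pairwise_J
    (hpw : ∀ x y z w : Fin n, x ≠ y → x ≠ z → x ≠ w → y ≠ z → y ≠ w → z ≠ w →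
      ∀ f : Omega n d → ℝ,
        (1 / 4) * ∑ G, (f G - f (tau x y z w G)) ^ 2 - (1 / 2) * K x y z w f
          - (1 / 2) * K z w x y f ≤ ip (f - GR {x, y} f) (f - GR {z, w} f))
    (hJ : ∀ x y : Fin n, x ≠ y → ∀ f : Omega n d → ℝ,
      ∑ z, ∑ w, (if x ≠ z ∧ x ≠ w ∧ y ≠ z ∧ y ≠ w ∧ z ≠ w then K x y z w f else 0)
        ≤ (1 / 4) * ∑ z, ∑ w, (if x ≠ z ∧ x ≠ w ∧ y ≠ z ∧ y ≠ w ∧ z ≠ w then
            ∑ G, (f G - f (tau x y z w G)) ^ 2 else 0)
          - 2 * ip (f - GR {x, y} f) (f - GR {x, y} f))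
    (f : Omega n d → ℝ) :
    ∑ p ∈ (univ : Finset (Fin n)).powersetCard 2, ip (f - GR p f) (f - GR p f)
      ≤ ∑ p ∈ (univ : Finset (Fin n)).powersetCard 2,
          ∑ q ∈ (univ : Finset (Fin n)).powersetCard 2,
            if Disjoint p q then ip (f - GR p f) (f - GR q f) else 0 := by
  have h := sum_step hpw 2 hJ f
  linarith

end Vale.Agent.Lib.P335.H46G
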